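import Vale.Agent.P352AB.Pub

namespace Vale.Agent.P352EF

open P352.GF P352AB
open UniformSpace (Completion)

noncomputable section

variable {D : Type*} [NormedAddCommGroup D] [InnerProductSpace ℂ D]

/-- The derivative at `0` of the translations in the direction `m`. -/
def Dv (Q : Theory D) (m : Ix) (v : D) : D := deriv (fun t : ℝ => Q.U 1 one (bas m t) v) 0

/-- Energy-momentum norms: the sum of the norms of all derivatives of order at most `k` of
`a ↦ U(a) v` at `a = 0`. -/
def en (Q : Theory D) : ℕ → D → ℝ
  | 0, v => ‖v‖
  | k + 1, v => en Q k v + ∑ m, en Q k (Dv Q m v)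

/-- **Polynomial energy bounds.** The smeared fields are bounded by a power of energy and momentum
that depends on the field only. -/
def EBd (Q : Theory D) : Prop := ∀ B, Q.fld B → ∃ k, ∀ f, In Set.univ f → ∃ C : ℝ, ∀ v,
  ‖B f v‖ ≤ C * en Q k v

/-- **Graded local nets of von Neumann algebras.** The theory is graded by `G`, the vacuum is even,
`A X` is the generator of the similitudes with velocity field `X`, and `Γ` is the grading on the
Hilbert space. The von Neumann algebras `N O`, `O` a region, are isotonic, covariant and graded, the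
fields smeared in `O` are affiliated to `N O`, and the algebras of opposite wedges commute in the
graded sense: the even part of `X` and the odd part of `X` times `Γ` commute with the algebra of the
opposite wedge. -/
structure LNg (Q : Theory D) (G : D → D) (A : (V → V) → D → D)
    (Γ : Completion D →L[ℂ] Completion D) (N : Set V → VonNeumannAlgebra (Completion D)) :
    Prop where
  gr : Gr Q G
  vac : G Q.vac = Q.vac
  add : ∀ r r' (c : ℝ) X X' v, IsSim r X → IsSim r' X' →
    A (fun z => X z + c • X' z) v = A X v + (c : ℂ) • A X' v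
  der : Der Q A
  ext : ∀ v : D, Γ v = (G v : D)
  fld : ∀ O B B' f, Q.fld B → IsAdj B B' → In O f → Aff (N O) (↑) (B f) (B' (bar f))
  mono : ∀ O O', O ⊆ O' → ∀ X ∈ N O, X ∈ N O'
  cov : ∀ s L y O, ∀ X ∈ N O, 0 < s → IsLor L →
    ∃ Y ∈ N (sim s L y '' O), ∀ z, Y (Ue Q s L y z) = Ue Q s L y (X z)
  gam : ∀ O, ∀ X ∈ N O, Γ * X * Γ ∈ N O
  loc : ∀ a b X, IsNull a → IsNull b → mdot a b = 1 → X ∈ N (Wdg b a 0) →
    X + Γ * X * Γ ∈ (N (Wdg a b 0)).commutant ∧ (X - Γ * X * Γ) * Γ ∈ (N (Wdg a b 0)).commutant

/-- The theory `Q'` extends the theory `Q` in the same Hilbert space: its domain `E` is dense, the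
vacuum and the similitudes are those of `Q`, every (Bose) field `B` of `Q` gives a (Bose) field
`e B` of `Q'`, which is a restriction of the adjoint of the formal adjoint of `B` and agrees with
`B` on the intersection of the domains, and the fields of `Q'` are affiliated to the algebras of the
wedges. -/
structure ExtF (Q : Theory D) (N : Set V → VonNeumannAlgebra (Completion D))
    {E : Submodule ℂ (Completion D)} (Q' : Theory E) (e : Fld D → Fld E) : Prop where
  dense : Dense (E : Set (Completion D))
  vac : (Q'.vac : Completion D) = (Q.vac : D)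
  U : ∀ s L a v, 0 < s → IsLor L → (Q'.U s L a v : Completion D) = Ue Q s L a v
  fld : ∀ B, Q.fld B → Q'.fld (e B)
  bos : ∀ B, Q.bose B → Q'.bose (e B)
  adj : ∀ B B' f (v : E) (w : D), Q.fld B → IsAdj B B' → IsTest f →
    inner ℂ (e B f v : Completion D) (w : Completion D) =
      inner ℂ (v : Completion D) (B' (bar f) w : Completion D)
  agree : ∀ B f (v : E) (w : D), Q.fld B → IsTest f → (v : Completion D) = w →
    (e B f v : Completion D) = (B f w : D)
  aff : ∀ a b y B B' f, IsNull a → IsNull b → mdot a b = 1 → Q'.fld B → IsAdj B B' →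
    In (Wdg a b y) f → Aff (N (Wdg a b y)) (↑) (B f) (B' (bar f))

/-- **The theory contains all local Bose fields of its defining fields.** The defining fields (the
fields of the graded theory `Q₀`) are fields of `Q`, they are finite sums of components of
multiplets and have finite scaling laws. Every Bose field of an extension of `Q₀` agrees on the
vacuum with a Bose field of `Q`. -/
structure BorchF (Q₀ Q : Theory D) (G : D → D) (N : Set V → VonNeumannAlgebra (Completion D)) :
    Prop where
  enl : IsEnl Q₀ Q
  gr : Gr Q₀ G
  mf : MfAll Q₀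
  fs : ∀ B, Q₀.fld B → Fs Q₀ B
  max : ∀ (E : Submodule ℂ (Completion D)) (Q' : Theory E) e B, ExtF Q₀ N Q' e → Q'.bose B →
    ∃ C, Q.bose C ∧ ∀ f, IsTest f → ((C f Q.vac : D) : Completion D) = B f Q'.vac

end

end Vale.Agent.P352EF
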