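import Vale.Agent.P352AB.W
import Vale.Agent.P352E.W
import Vale.Agent.P352EF.Pub

/-!
# P352EF: transfer to the compact vocabulary
-/

set_option linter.all false

namespace Vale.Agent.P352EF

open Vale.Agent.P352 Vale.Agent.P352.GF Vale.Agent.P352AB
open UniformSpace (Completion)

noncomputable section

variable {D : Type*} [NormedAddCommGroup D] [InnerProductSpace ℂ D] {Q : Theory D}
  {A : (V → V) → D → D} {G : D → D} {N : Set V → VonNeumannAlgebra (Completion D)}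
  {Γ : Completion D →L[ℂ] Completion D}

lemma en_up (k : ℕ) : ∀ v, en Q k v = H246.en Q k v := by
  induction k with
  | zero => exact fun _ => rfl
  | succ k h => exact fun v => by simp only [en, H246.en, h]; rfl

lemma EBd.up (h : EBd Q) : P352X.EBd Q := fun B b => by
  simp only [← en_up]
  exact h B b

lemma mf_up (h : MfAll Q) : P352X.MfAll Q := fun B b => let ⟨n, C, c, d⟩ := h B b
  ⟨n, C, fun i => let ⟨k, Φ, a, e⟩ := c i; ⟨k.up, Φ, a, e⟩, d⟩

lemma LNg.up (h : LNg Q G A Γ N) : P352X.LNg Q G A Γ N :=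
  ⟨h.gr.up, h.vac, h.add, h.der, h.ext, fun O B f a b => let ⟨B', _, c⟩ := Q.adj B a
    ⟨_, fun v w => c f v w b.1, (h.fld O B B' f a c b).com⟩, h.mono, h.cov, h.gam, h.loc⟩

lemma BorchF.up {Q₀} (h : BorchF Q₀ Q G N) : P352E.BorchG Q G N :=
  ⟨Q₀, h.enl.up, h.gr.up, mf_up h.mf, h.fs, fun E Q' e a b B c => h.max E Q' e B
    ⟨a.dense, a.vac, a.U, a.fld, a.bos, a.adj, a.agree,
      fun x y z C C' f p q r s u v => ⟨b x y z C C' f p q r s u v⟩⟩ c⟩

end

theorem final {D : Type*} [NormedAddCommGroup D] [InnerProductSpace ℂ D] (Q : Theory D)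
    (G : D → D) (T : Ix → Ix → Fld D) (hT : Stress0 Q T) (A : (V → V) → D → D) (hA : PCh Q T A)
    (J : Ix → Fld D) (hV : Virial0 Q T J A) (hC : ∀ s, 0 < s → Cov Q s one 0)
    (aT : ∀ m n, Asy Q 4 (T m n)) (aJ : ∀ m, Asy Q 3 (J m)) (hM : MfAll Q)
    (Γ : Completion D →L[ℂ] Completion D) (N : Set V → VonNeumannAlgebra (Completion D))
    (hN : LNg Q G A Γ N) (hU : UVac Q) (hE : EBd Q) (hR : RecV Q ∨ ∃ Q₀, BorchF Q₀ Q G N) :
    ∃ S K, IsImpr Q T (improveJ S K) ∧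
      ∀ Q' : Theory D, IsEnl Q Q' → Gr Q' G → Conf Q' G S K := by
  obtain ⟨S, K, h1, h2⟩ := P352E.final Q G T hT.up A hA.up J hV.up hC aT aJ (mf_up hM) Γ N hN.up hU
    hE.up (hR.imp RecV.up fun ⟨_, h⟩ => h.up)
  exact ⟨S, K, impr_dn h1, fun Q' n g => conf_dn (h2 Q' n.up g.up)⟩

end Vale.Agent.P352EF
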